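import Vale.Agent.P057SG.Plan
import Vale.Agent.P057EN.Top

/-!
Algebraic properties of the root system.
-/

set_option linter.all false

open Matrix Finset
open Vale.Agent.P267.H775 Vale.Agent.P057G Vale.Agent.P057PC Vale.Agent.P057TP Vale.Agent.P057MA
open Vale.Agent.P057GH Vale.Agent.P057SG
open Vale.Agent.P057DP (pbo sG ok_pbo pd_sG Gam_ne)
open Vale.Agent.P057SY (fo)
open Vale.Agent.P057IV (OnP Ty)

namespace Vale.Agent.P057RA

noncomputable section

theorem at_insert {T : Tow} {V W S : Type} [DecidableEq V] [Fintype W] [DecidableEq W]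
    (Z₀ : Sys T V Unit) {j : W → Option V} {u : W} (hu : j u = none) (o : Option S) (B : Finset W)
    (b : T.ι) : (pbo Z₀ j S).fam.at' o (insert u B) b = (pbo Z₀ j S).fam.at' o B b := by
  simp only [Fam.at', pbo, fsb, MvPolynomial.map_map]
  congr 2
  refine MvPolynomial.ringHom_ext (fun r => by simp [sb_C, evA]) fun x => ?_
  cases x with
  | none => simp [sb_none, evA]
  | some w =>
    simp only [RingHom.comp_apply, sb_some, map_sum, evA, MvPolynomial.eval_X, Option.elim]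
    refine sum_congr rfl fun v hv => if_congr (mem_insert.trans (or_iff_right ?_)) rfl rfl
    rintro rfl
    rw [mem_filter, hu] at hv
    cases hv.2

variable {T : Tow} {n p : ℕ} {R : Type}

theorem bs_none (l : Lr T n p R) : l.bs = none := by
  cases h : l.bs with
  | none => rfl
  | some e => exact e.elim

theorem mem_lf {l : Lr T n p R} {v : Option (Fin n)} : v ∈ lf l ↔ ∃ x ∈ l.fc, v ∈ lc x :=
  mem_biUnion

theorem lf_mono {l l' : Lr T n p R} (h : l'.fc ⊆ l.fc) : lf l' ⊆ lf l :=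
  biUnion_subset_biUnion_of_subset_left _ h

theorem cV_of_lc {x : Vt n p R} {v : Option (Fin n)} (h : v ∈ lc x) : cV x = v.map some := by
  rcases x with _ | w | u
  · rw [mem_singleton.1 h]; rfl
  · rw [mem_singleton.1 h]; rfl
  · exact absurd h (notMem_empty _)

theorem jk_of_lc {x : Vt n p R} {v : Option (Fin n)} (h : v ∈ lc x) : jk x = none := by
  rcases x with _ | w | u
  · rfl
  · rfl
  · exact absurd h (notMem_empty _)

theorem none_lc {x : Vt n p R} : none ∈ lc x ↔ x = none := by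
  rcases x with _ | w | u <;> simp [lc]

theorem none_lf {l : Lr T n p R} : none ∈ lf l ↔ none ∈ l.fc := by
  rw [mem_lf]
  exact ⟨fun ⟨x, h1, h2⟩ => none_lc.1 h2 ▸ h1, fun h => ⟨none, h, none_lc.2 rfl⟩⟩

theorem none_om [DecidableEq R] {l : Lr T n p R} : none ∈ l.fc.image om ↔ none ∈ l.fc := by
  rw [mem_image]
  refine ⟨fun ⟨x, h1, h2⟩ => ?_, fun h => ⟨none, h, rfl⟩⟩
  cases x with
  | none => exact h1
  | some x => cases h2

theorem none_fo {C W : Type} [Fintype W] [DecidableEq W] {cl : W → C} {m : ℕ}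
    {l : Lb T cl Unit m} : none ∈ fo l ↔ l.bs ≠ none := by
  unfold fo
  split_ifs with h <;> simp [h]

/-- on the subfaces of a face a live class is carried by one vertex -/
theorem lf_iff {l k : Lr T n p R} {x : Vt n p R} {v : Option (Fin n)} (hx : x ∈ l.fc)
    (hv : v ∈ lc x) (hk : k.fc ⊆ l.fc) : v ∈ lf k ↔ x ∈ k.fc := by
  refine ⟨fun h => ?_, fun h => mem_lf.2 ⟨x, h, hv⟩⟩
  obtain ⟨y, h1, h2⟩ := mem_lf.1 h
  have e : y = x := l.2.2.1 (hk h1) hx ((cV_of_lc h2).trans (cV_of_lc hv).symm)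
  exact e ▸ h1

theorem gl2_pos (x : Lv T n p R → ℝ) (D : Fz T n p R → ℤ) {k : Lr T n p R} (h : Liv k) :
    gl2 x D k = x ⟨k, h⟩ := dif_pos h

theorem gl2_neg (x : Lv T n p R → ℝ) (D : Fz T n p R → ℤ) {k : Lr T n p R} (h : ¬ Liv k) :
    gl2 x D k = D ⟨k, h⟩ := dif_neg h

theorem gl2_congr {x x' : Lv T n p R → ℝ} (D : Fz T n p R → ℤ) {k : Lr T n p R}
    (h : ∀ hk : Liv k, x ⟨k, hk⟩ = x' ⟨k, hk⟩) : gl2 x D k = gl2 x' D k := by
  by_cases hk : Liv k
  · rw [gl2_pos _ _ hk, gl2_pos _ _ hk, h]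
  · rw [gl2_neg _ _ hk, gl2_neg _ _ hk]

theorem gl2_add (x x' : Lv T n p R → ℝ) :
    gl2 (x + x') (0 : Fz T n p R → ℤ) = gl2 x 0 + gl2 x' 0 := funext fun k => by
  by_cases hk : Liv k
  · simp only [Pi.add_apply, gl2_pos _ _ hk]
  · simp [gl2_neg _ _ hk]

theorem gl2_smul (c : ℝ) (x : Lv T n p R → ℝ) :
    gl2 (c • x) (0 : Fz T n p R → ℤ) = c • gl2 x 0 := funext fun k => by
  by_cases hk : Liv k
  · simp only [Pi.smul_apply, gl2_pos _ _ hk]
  · simp [gl2_neg _ _ hk]

theorem gl2_zero : gl2 (0 : Lv T n p R → ℝ) (0 : Fz T n p R → ℤ) = 0 := funext fun k => by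
  by_cases hk : Liv k
  · simp only [Pi.zero_apply, gl2_pos _ _ hk]
  · simp [gl2_neg _ _ hk]

theorem sv_pos {lam γ : ℝ} (hl : 0 < lam) (hg : 0 < γ) (x : Vt n p R) : 0 < sv lam γ x := by
  rcases x with _ | w | u
  exacts [hg, hl, one_pos]

variable [Fintype R] [DecidableEq R] {Z : Sys T (Uv n p R) Unit} {lam γ : ℝ}
  {D : Fz T n p R → ℤ} {s : ℕ} {N : ℝ}

theorem mem_st {v : Option (Fin n)} {k : Lv T n p R} :
    k ∈ (root Z lam γ D).st v ↔ v ∈ lf k.1 := (root Z lam γ D).mem_st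

theorem gl2_in {v : Option (Fin n)} {k : Lr T n p R} (h : v ∈ lf k) (x y : Lv T n p R → ℝ) :
    gl2 (mix ((root Z lam γ D).st v) x y) D k = gl2 x 0 k := by
  have c : Liv k := ⟨v, h⟩
  have d : (⟨k, c⟩ : Lv T n p R) ∈ (root Z lam γ D).st v := mem_st.2 h
  rw [gl2_pos _ _ c, gl2_pos _ _ c, mix_pos _ _ d]

theorem gl2_out {v : Option (Fin n)} {k : Lr T n p R} (h : v ∉ lf k) (x y : Lv T n p R → ℝ) :
    gl2 (mix ((root Z lam γ D).st v) x y) D k = gl2 y D k :=
  gl2_congr D fun hk => mix_neg _ _ fun b => h (mem_st (k := ⟨k, hk⟩).1 b)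

theorem ok_root (hT : T.Ok s N) (hZ : Z.Ok) (hl : 0 < lam) (hg : 0 < γ) :
    (root Z lam γ D).Ok := by
  have hP := ok_pbo hZ (jk : Vt n p R → _) Empty
  refine ⟨posDef_bk (pd_sG hT.pd fun A _ => prod_pos fun x _ => sv_pos hl hg x) _,
    fun i j h => ?_, fun i z z' h => ?_, fun v i hv y => ?_⟩
  · have h1 : Gam T cV Empty (n + 2) i.1 j.1 ≠ 0 := right_ne_zero_of_mul h
    have h2 := Gam_ne h1
    refine ⟨congrArg (fun A : Finset (Vt n p R) => A.biUnion lc) h2.1, by_contra fun e => h1 ?_⟩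
    simp only [Gam, of_apply, if_pos h2]
    exact hT.blk _ _ e
  · exact pr_congr hT hP fun k h1 _ h3 => gl2_congr D fun hk => h ⟨k, hk⟩ ⟨lf_mono h1, h3⟩
  · obtain ⟨x₀, h1, h2⟩ := mem_lf.1 hv
    have e : ∀ x, (root Z lam γ D).p (mix ((root Z lam γ D).st v) x y) i =
        (pbo Z jk Empty).pr cV (n + 2)
          (mix (univ.filter fun k : Lr T n p R => x₀ ∈ k.fc) (gl2 x 0) (gl2 y D)) i.1 := fun x =>
      pr_congr hT hP fun k k1 _ _ => by
        by_cases a : x₀ ∈ k.fc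
        · rw [gl2_in ((lf_iff h1 h2 k1).2 a)]
          exact (mix_pos _ _ (mem_filter.2 ⟨mem_univ k, a⟩)).symm
        · rw [gl2_out (mt (lf_iff h1 h2 k1).1 a)]
          exact (mix_neg _ _ (by simpa using a)).symm
    have h3 := P057EN.aff_pr hP (bs_none i.1) h1
      (r := univ.filter fun k : Lr T n p R => x₀ ∈ k.fc) (fun k hk => (mem_filter.1 hk).2)
      (gl2 y D)
    simp only [e, gl2_zero]
    exact ⟨fun x x' => by rw [gl2_add]; exact h3.map_add _ _,
      fun c x => by rw [gl2_smul]; exact h3.map_smul _ _⟩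

theorem cen_root : (root Z lam γ D).Cen := by
  refine ⟨fun i => i.2, fun v i hv y => ?_⟩
  obtain ⟨x₀, h1, h2⟩ := mem_lf.1 hv
  refine P057EN.pr_free _ h1 (fun B => at_insert Z (jk_of_lc h2) _ B _) fun k k1 k2 => ?_
  rw [gl2_in ((lf_iff h1 h2 k2).2 k1), gl2_zero]
  rfl

/-- the old labels without special vertex see only the live labels without displacement -/
theorem rmap_congr {x x' : Lv T n p R → ℝ} (h : ∀ k : Lv T n p R, none ∉ k.1.fc → x k = x' k)
    {l : Lb T (cU : Uv n p R → _) Unit (n + 2)} (hl : l.bs = none) :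
    rmap D x l = rmap D x' l :=
  sum_congr rfl fun k _ => by
    split_ifs with a
    · exact gl2_congr D fun hk => h _ fun b => none_fo.1 (a.2.1 ▸ none_om.2 b) hl
    · rfl

theorem rp_congr {x x' : Lv T n p R → ℝ} (h : ∀ k : Lv T n p R, none ∉ k.1.fc → x k = x' k) :
    rp (rmap D x) = rp (rmap D x') := funext fun l => congrArg round (rmap_congr h l.2)

/-- the old labels with special vertex are linear in the live labels with displacement -/
theorem rmap_mix (x y : Lv T n p R → ℝ) {l : Lb T (cU : Uv n p R → _) Unit (n + 2)}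
    (hl : l.bs ≠ none) : rmap D (mix ((root Z lam γ D).st none) x y) l = rmap 0 x l :=
  sum_congr rfl fun k _ => by
    split_ifs with a
    · exact gl2_in (none_lf.2 (none_om.1 (a.2.1 ▸ none_fo.2 hl))) x y
    · rfl

theorem rmap_add (x x' : Lv T n p R → ℝ) :
    rmap (0 : Fz T n p R → ℤ) (x + x') = rmap 0 x + rmap 0 x' := funext fun l => by
  simp only [rmap, gl2_add, Pi.add_apply, ← sum_add_distrib]
  exact sum_congr rfl fun k _ => by split_ifs <;> simp

theorem rmap_smul (c : ℝ) (x : Lv T n p R → ℝ) :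
    rmap (0 : Fz T n p R → ℤ) (c • x) = c • rmap 0 x := funext fun l => by
  simp only [rmap, gl2_smul, Pi.smul_apply, smul_eq_mul, mul_sum]
  exact sum_congr rfl fun k _ => by split_ifs <;> simp

theorem ty_root (ψ : (Pg T n p R → ℤ) → Lg T n p R → ℝ) :
    Ty (root Z lam γ D) {none} (BB n) fun x => fm ψ (rmap D x) := by
  refine ⟨fun z z' h => ?_, fun v hv y => ?_⟩
  · rw [show z = z' from funext fun i => h i (mem_filter.2 ⟨mem_univ _, fun v _ => by
      cases v <;> simp [BB]⟩)]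
  · rw [mem_singleton.1 hv]
    have e : ∀ x, fm ψ (rmap D (mix ((root Z lam γ D).st none) x y)) =
        ψ (rp (rmap D y)) ⬝ᵥ fun l => rmap 0 x l.1 := fun x => by
      rw [fm, rp_congr (x' := y) fun k hk => mix_neg _ _ fun b => hk (none_lf.1 (mem_st.1 b))]
      congr 1
      exact funext fun l => rmap_mix x y l.2.2
    simp only [e]
    refine ⟨fun x x' => ?_, fun c x => ?_⟩
    · rw [← dotProduct_add, rmap_add]; rfl
    · rw [← dotProduct_smul, rmap_smul]; rfl

theorem onp_root (Q : (Pg T n p R → ℤ) → Prop) :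
    OnP (fce (root Z lam γ D) (BB n)) fun x => Q (rp (rmap D x)) := fun z z' h hz => by
  beta_reduce at hz ⊢
  rwa [rp_congr (x' := z) fun k hk => (h k (mem_filter.2 ⟨mem_univ _, fun v hv =>
    mem_erase.2 ⟨fun e => hk (none_lf.1 (e ▸ hv)), mem_univ _⟩⟩)).symm]

theorem roota : ROOTA := fun _ _ _ _ _ _ _ _ _ _ _ _ hT hZ hl hg =>
  ⟨ok_root hT hZ hl hg, cen_root, ty_root, onp_root⟩

end

end Vale.Agent.P057RA
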